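import Vale.Agent.P194.Final
import Vale.Agent.P186.Hyp
import Vale.Agent.P186.Ext

namespace Vale.Agent.Results.P186.NotResFinite

open Vale.Agent.P194 Vale.Agent.P186

/-- There is a word-hyperbolic group that is not residually finite. -/
theorem result : ∃ (G : Type) (_ : Group G), IsWordHyperbolic G ∧ ¬ Group.ResiduallyFinite G := by
  obtain ⟨V, _, _, D, σ, ex, ν, h1, h2, h3⟩ := exists_all
  obtain ⟨G, _, q, z, hq, hk, hz, a, b, h4, h5⟩ := central_ext h1 h2 h3
  refine ⟨G, inferInstance, IsWordHyperbolic.of_finite_ker q hq (hyperbolic_Gq h1 h3), ?_⟩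
  intro hG
  obtain ⟨H, hH⟩ := Group.exists_finiteIndexNormalSubgroup_notMem z hz
  apply hH
  have : Finite (G ⧸ H.toSubgroup) := Subgroup.finite_quotient_of_finiteIndex
  have : Finite (MonoidAlgebra (ZMod 2) (G ⧸ H.toSubgroup)) :=
    Module.finite_of_finite (ZMod 2)
  have h6 := h5 (G ⧸ H.toSubgroup) (QuotientGroup.mk' H.toSubgroup) (by
    rw [map_mul, mul_eq_one_comm, ← map_mul, h4, map_one])
  exact (QuotientGroup.eq_one_iff _).1 h6

end Vale.Agent.Results.P186.NotResFinite
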